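import Vale.Agent.P252.Rigidity.General.Cert4.Jets

/-! Block forms of one basic field, generated and checked by `ring`. -/

namespace Vale.Agent.P252.General.Cert4

open Vale.Agent.P100T.PosCheck
open scoped Matrix

set_option linter.unusedSimpArgs false

/-- Block 0 of the normalised output. -/
def b2DI_0 : Fin 9 → Fin 9 → Ex :=
  ![![m3 (540) 0 0 0, .num 0, m3 (180) 0 0 0, .num 0, .num 0, .num 0, .num 0, .add (m3 (60) 0 0 2) (m3 (72) 1 0 1), .num 0],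
    ![.num 0, m3 (720) 0 0 0, .num 0, .num 0, .num 0, .num 0, .num 0, m3 (72) 0 1 1, .num 0],
    ![m3 (180) 0 0 0, .num 0, m3 (540) 0 0 0, .num 0, .num 0, .num 0, .num 0, m3 (-150) 0 0 2, .num 0],
    ![.num 0, .num 0, .num 0, .num 0, .num 0, .num 0, .num 0, m3 (-150) 0 0 3, .num 0],
    ![.num 0, .num 0, .num 0, .num 0, .num 0, .num 0, .num 0, .num 0, .num 0],
    ![.num 0, .num 0, .num 0, .num 0, .num 0, .num 0, .num 0, .num 0, .num 0],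
    ![.num 0, .num 0, .num 0, .num 0, .num 0, .num 0, .num 0, .num 0, .num 0],
    ![.add (m3 (60) 0 0 2) (m3 (72) 1 0 1), m3 (72) 0 1 1, m3 (-150) 0 0 2, m3 (-150) 0 0 3, .num 0, .num 0, .num 0, m3 (125) 0 0 4, .num 0],
    ![.num 0, .num 0, .num 0, .num 0, .num 0, .num 0, .num 0, .num 0, .num 0]]

/-- Block 1 of the normalised output. -/
def b2DI_1 : Fin 5 → Fin 5 → Ex :=
  ![![m3 (720) 0 0 0, .num 0, .num 0, .num 0, .num 0],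
    ![.num 0, m3 (720) 0 0 0, .num 0, .num 0, .num 0],
    ![.num 0, .num 0, .num 0, .num 0, .num 0],
    ![.num 0, .num 0, .num 0, .num 0, .num 0],
    ![.num 0, .num 0, .num 0, .num 0, .num 0]]

/-- Block 2 of the normalised output. -/
def b2DI_2 : Fin 3 → Fin 3 → Ex :=
  ![![m3 (720) 0 0 0, .num 0, .num 0],
    ![.num 0, .num 0, .num 0],
    ![.num 0, .num 0, .num 0]]

lemma b2DI (X Y Z : ℝ) (p : Par) (S₂ S₃ : Matrix (Fin 4) (Fin 4) ℝ) :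
    (jetI X Y Z p S₂ S₃).baseDiv (.h 0) + ((100 : ℝ) • (jetI X Y Z p S₂ S₃).v + (-1 / 2 : ℝ) • (jetI X Y Z p S₂ S₃).t) ⬝ᵥ (jetI X Y Z p S₂ S₃).baseY (.h 0) =
      blocks X Y Z p b2DI_0 b2DI_1 b2DI_2 (Z^2) Z 0 / 360 := by
  norm_num [Jet.baseDiv, Jet.baseY, Jet.gradH, Jet.gradT, Jet.dd, Jet.du, Jet.dl, Jet.Z, C_jetI]
  simp [jetI, Par.mH, Par.mA, Par.mB, Par.x0, Par.x1a, Par.x1b, Par.x2a, Par.x2b, blocks, qf,
    b2DI_0, b2DI_1, b2DI_2, m3, PolyPSD.evalAt, Ex.eval, dotProduct, Matrix.mulVec, Matrix.trace,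
    Matrix.mul_apply, Matrix.vecMulVec_apply, Matrix.vecMul, Matrix.one_apply, Fin.sum_univ_succ]
  ring

/-- Block 0 of the normalised output. -/
def b2G00I_0 : Fin 9 → Fin 9 → Ex :=
  ![![m3 (4) 0 0 2, .num 0, .num 0, m3 (-1) 0 0 3, .num 0, .num 0, .num 0, .num 0, .num 0],
    ![.num 0, m3 (4) 0 0 2, .num 0, .num 0, m3 (-1) 0 0 3, .num 0, .num 0, .num 0, .num 0],
    ![.num 0, .num 0, .num 0, .num 0, .num 0, .num 0, .num 0, .num 0, .num 0],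
    ![m3 (-1) 0 0 3, .num 0, .num 0, .num 0, .num 0, .num 0, .num 0, .num 0, .num 0],
    ![.num 0, m3 (-1) 0 0 3, .num 0, .num 0, .num 0, .num 0, .num 0, .num 0, .num 0],
    ![.num 0, .num 0, .num 0, .num 0, .num 0, .num 0, .num 0, .num 0, .num 0],
    ![.num 0, .num 0, .num 0, .num 0, .num 0, .num 0, .num 0, .num 0, .num 0],
    ![.num 0, .num 0, .num 0, .num 0, .num 0, .num 0, .num 0, .num 0, .num 0],
    ![.num 0, .num 0, .num 0, .num 0, .num 0, .num 0, .num 0, .num 0, .num 0]]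

/-- Block 1 of the normalised output. -/
def b2G00I_1 : Fin 5 → Fin 5 → Ex :=
  ![![m3 (4) 0 0 2, .num 0, m3 (-1) 0 0 3, .num 0, .num 0],
    ![.num 0, .num 0, .num 0, .num 0, .num 0],
    ![m3 (-1) 0 0 3, .num 0, .num 0, .num 0, .num 0],
    ![.num 0, .num 0, .num 0, .num 0, .num 0],
    ![.num 0, .num 0, .num 0, .num 0, .num 0]]

/-- Block 2 of the normalised output. -/
def b2G00I_2 : Fin 3 → Fin 3 → Ex :=
  ![![.num 0, .num 0, .num 0],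
    ![.num 0, .num 0, .num 0],
    ![.num 0, .num 0, .num 0]]

lemma b2G00I (X Y Z : ℝ) (p : Par) (S₂ S₃ : Matrix (Fin 4) (Fin 4) ℝ) :
    (jetI X Y Z p S₂ S₃).dd 0 0 ⬝ᵥ (jetI X Y Z p S₂ S₃).baseY (.h 0) =
      blocks X Y Z p b2G00I_0 b2G00I_1 b2G00I_2 (Z^2) Z 0 / 2 := by
  norm_num [Jet.baseDiv, Jet.baseY, Jet.gradH, Jet.gradT, Jet.dd, Jet.du, Jet.dl, Jet.Z, C_jetI]
  simp [jetI, Par.mH, Par.mA, Par.mB, Par.x0, Par.x1a, Par.x1b, Par.x2a, Par.x2b, blocks, qf,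
    b2G00I_0, b2G00I_1, b2G00I_2, m3, PolyPSD.evalAt, Ex.eval, dotProduct, Matrix.mulVec, Matrix.trace,
    Matrix.mul_apply, Matrix.vecMulVec_apply, Matrix.vecMul, Matrix.one_apply, Fin.sum_univ_succ]
  ring

/-- Block 0 of the normalised output. -/
def b2G01I_0 : Fin 9 → Fin 9 → Ex :=
  ![![m3 (500) 1 0 1, m3 (250) 0 1 1, .num 0, m3 (-250) 1 0 2, m3 (-250) 0 1 2, .num 0, .num 0, m3 (-1) 2 0 2, m3 (-62500) 0 0 2],
    ![m3 (250) 0 1 1, m3 (500) 1 0 1, m3 (250) 0 1 1, .num 0, m3 (-250) 1 0 2, m3 (-250) 0 1 2, .num 0, m3 (-1) 1 1 2, .num 0],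
    ![.num 0, m3 (250) 0 1 1, .num 0, .num 0, .num 0, .num 0, .num 0, .num 0, .num 0],
    ![m3 (-250) 1 0 2, .num 0, .num 0, .num 0, .num 0, .num 0, .num 0, .num 0, .num 0],
    ![m3 (-250) 0 1 2, m3 (-250) 1 0 2, .num 0, .num 0, .num 0, .num 0, .num 0, .num 0, .num 0],
    ![.num 0, m3 (-250) 0 1 2, .num 0, .num 0, .num 0, .num 0, .num 0, .num 0, .num 0],
    ![.num 0, .num 0, .num 0, .num 0, .num 0, .num 0, .num 0, .num 0, .num 0],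
    ![m3 (-1) 2 0 2, m3 (-1) 1 1 2, .num 0, .num 0, .num 0, .num 0, .num 0, .num 0, .num 0],
    ![m3 (-62500) 0 0 2, .num 0, .num 0, .num 0, .num 0, .num 0, .num 0, .num 0, .num 0]]

/-- Block 1 of the normalised output. -/
def b2G01I_1 : Fin 5 → Fin 5 → Ex :=
  ![![m3 (500) 1 0 1, m3 (250) 0 1 1, m3 (-250) 1 0 2, m3 (-250) 0 1 2, .num 0],
    ![m3 (250) 0 1 1, .num 0, .num 0, .num 0, .num 0],
    ![m3 (-250) 1 0 2, .num 0, .num 0, .num 0, .num 0],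
    ![m3 (-250) 0 1 2, .num 0, .num 0, .num 0, .num 0],
    ![.num 0, .num 0, .num 0, .num 0, .num 0]]

/-- Block 2 of the normalised output. -/
def b2G01I_2 : Fin 3 → Fin 3 → Ex :=
  ![![.num 0, .num 0, .num 0],
    ![.num 0, .num 0, .num 0],
    ![.num 0, .num 0, .num 0]]

lemma b2G01I (X Y Z : ℝ) (p : Par) (S₂ S₃ : Matrix (Fin 4) (Fin 4) ℝ) :
    (jetI X Y Z p S₂ S₃).dd 0 1 ⬝ᵥ (jetI X Y Z p S₂ S₃).baseY (.h 0) =
      blocks X Y Z p b2G01I_0 b2G01I_1 b2G01I_2 (Z^2) Z 0 / 125000 := by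
  norm_num [Jet.baseDiv, Jet.baseY, Jet.gradH, Jet.gradT, Jet.dd, Jet.du, Jet.dl, Jet.Z, C_jetI]
  simp [jetI, Par.mH, Par.mA, Par.mB, Par.x0, Par.x1a, Par.x1b, Par.x2a, Par.x2b, blocks, qf,
    b2G01I_0, b2G01I_1, b2G01I_2, m3, PolyPSD.evalAt, Ex.eval, dotProduct, Matrix.mulVec, Matrix.trace,
    Matrix.mul_apply, Matrix.vecMulVec_apply, Matrix.vecMul, Matrix.one_apply, Fin.sum_univ_succ]
  ring

/-- Block 0 of the normalised output. -/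
def b2G11I_0 : Fin 9 → Fin 9 → Ex :=
  ![![.num 0, .num 0, .num 0, m3 (-125) 2 0 1, m3 (-250) 1 1 1, m3 (-125) 0 2 1, .num 0, .add (m3 (-1) 1 2 1) (m3 (-1) 3 0 1), m3 (-62500) 1 0 1],
    ![.num 0, .num 0, .num 0, .num 0, m3 (-125) 2 0 1, m3 (-250) 1 1 1, m3 (-125) 0 1 1, .add (m3 (-1) 0 3 1) (m3 (-1) 2 1 1), m3 (-62500) 0 1 1],
    ![.num 0, .num 0, .num 0, .num 0, .num 0, .num 0, .num 0, .num 0, .num 0],
    ![m3 (-125) 2 0 1, .num 0, .num 0, .num 0, .num 0, .num 0, .num 0, .num 0, .num 0],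
    ![m3 (-250) 1 1 1, m3 (-125) 2 0 1, .num 0, .num 0, .num 0, .num 0, .num 0, .num 0, .num 0],
    ![m3 (-125) 0 2 1, m3 (-250) 1 1 1, .num 0, .num 0, .num 0, .num 0, .num 0, .num 0, .num 0],
    ![.num 0, m3 (-125) 0 1 1, .num 0, .num 0, .num 0, .num 0, .num 0, .num 0, .num 0],
    ![.add (m3 (-1) 1 2 1) (m3 (-1) 3 0 1), .add (m3 (-1) 0 3 1) (m3 (-1) 2 1 1), .num 0, .num 0, .num 0, .num 0, .num 0, .num 0, .num 0],
    ![m3 (-62500) 1 0 1, m3 (-62500) 0 1 1, .num 0, .num 0, .num 0, .num 0, .num 0, .num 0, .num 0]]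

/-- Block 1 of the normalised output. -/
def b2G11I_1 : Fin 5 → Fin 5 → Ex :=
  ![![.num 0, .num 0, m3 (-125) 2 0 1, m3 (-250) 1 1 1, m3 (-125) 0 1 1],
    ![.num 0, .num 0, .num 0, .num 0, .num 0],
    ![m3 (-125) 2 0 1, .num 0, .num 0, .num 0, .num 0],
    ![m3 (-250) 1 1 1, .num 0, .num 0, .num 0, .num 0],
    ![m3 (-125) 0 1 1, .num 0, .num 0, .num 0, .num 0]]

/-- Block 2 of the normalised output. -/
def b2G11I_2 : Fin 3 → Fin 3 → Ex :=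
  ![![.num 0, .num 0, .num 0],
    ![.num 0, .num 0, .num 0],
    ![.num 0, .num 0, .num 0]]

lemma b2G11I (X Y Z : ℝ) (p : Par) (S₂ S₃ : Matrix (Fin 4) (Fin 4) ℝ) :
    (jetI X Y Z p S₂ S₃).dd 1 1 ⬝ᵥ (jetI X Y Z p S₂ S₃).baseY (.h 0) =
      blocks X Y Z p b2G11I_0 b2G11I_1 b2G11I_2 (Z^2) Z 0 / 15625000 := by
  norm_num [Jet.baseDiv, Jet.baseY, Jet.gradH, Jet.gradT, Jet.dd, Jet.du, Jet.dl, Jet.Z, C_jetI]
  simp [jetI, Par.mH, Par.mA, Par.mB, Par.x0, Par.x1a, Par.x1b, Par.x2a, Par.x2b, blocks, qf,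
    b2G11I_0, b2G11I_1, b2G11I_2, m3, PolyPSD.evalAt, Ex.eval, dotProduct, Matrix.mulVec, Matrix.trace,
    Matrix.mul_apply, Matrix.vecMulVec_apply, Matrix.vecMul, Matrix.one_apply, Fin.sum_univ_succ]
  ring

/-- Block 0 of the normalised output. -/
def b2DII_0 : Fin 9 → Fin 9 → Ex :=
  ![![m3 (540) 0 0 0, .num 0, m3 (180) 0 0 0, .num 0, .num 0, .num 0, .num 0, .add (m3 (-150) 0 2 0) (.add (m3 (72) 1 0 1) (m3 (60) 2 0 0)), .num 0],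
    ![.num 0, m3 (720) 0 0 0, .num 0, .num 0, .num 0, .num 0, .num 0, .add (m3 (72) 0 1 1) (m3 (420) 1 1 0), .num 0],
    ![m3 (180) 0 0 0, .num 0, m3 (540) 0 0 0, .num 0, .num 0, .num 0, .num 0, .add (m3 (60) 0 2 0) (m3 (-150) 2 0 0), .num 0],
    ![.num 0, .num 0, .num 0, .num 0, .num 0, .num 0, .num 0, m3 (-150) 3 0 0, .num 0],
    ![.num 0, .num 0, .num 0, .num 0, .num 0, .num 0, .num 0, m3 (-450) 2 1 0, .num 0],
    ![.num 0, .num 0, .num 0, .num 0, .num 0, .num 0, .num 0, m3 (-450) 1 2 0, .num 0],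
    ![.num 0, .num 0, .num 0, .num 0, .num 0, .num 0, .num 0, m3 (-150) 0 2 0, .num 0],
    ![.add (m3 (-150) 0 2 0) (.add (m3 (72) 1 0 1) (m3 (60) 2 0 0)), .add (m3 (72) 0 1 1) (m3 (420) 1 1 0), .add (m3 (60) 0 2 0) (m3 (-150) 2 0 0), m3 (-150) 3 0 0, m3 (-450) 2 1 0, m3 (-450) 1 2 0, m3 (-150) 0 2 0, .add (m3 (125) 0 4 0) (.add (m3 (250) 2 2 0) (m3 (125) 4 0 0)), .num 0],
    ![.num 0, .num 0, .num 0, .num 0, .num 0, .num 0, .num 0, .num 0, .num 0]]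

/-- Block 1 of the normalised output. -/
def b2DII_1 : Fin 5 → Fin 5 → Ex :=
  ![![m3 (720) 0 0 0, .num 0, .num 0, .num 0, .num 0],
    ![.num 0, m3 (720) 0 0 0, .num 0, .num 0, .num 0],
    ![.num 0, .num 0, .num 0, .num 0, .num 0],
    ![.num 0, .num 0, .num 0, .num 0, .num 0],
    ![.num 0, .num 0, .num 0, .num 0, .num 0]]

/-- Block 2 of the normalised output. -/
def b2DII_2 : Fin 3 → Fin 3 → Ex :=
  ![![m3 (720) 0 0 0, .num 0, .num 0],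
    ![.num 0, .num 0, .num 0],
    ![.num 0, .num 0, .num 0]]

lemma b2DII (X Y Z : ℝ) (p : Par) (S₂ S₃ : Matrix (Fin 4) (Fin 4) ℝ) :
    (jetII X Y Z p S₂ S₃).baseDiv (.h 0) + ((100 : ℝ) • (jetII X Y Z p S₂ S₃).v + (-1 / 2 : ℝ) • (jetII X Y Z p S₂ S₃).t) ⬝ᵥ (jetII X Y Z p S₂ S₃).baseY (.h 0) =
      blocks X Y Z p b2DII_0 b2DII_1 b2DII_2 (X^2 + Y^2) X Y / 360 := by
  norm_num [Jet.baseDiv, Jet.baseY, Jet.gradH, Jet.gradT, Jet.dd, Jet.du, Jet.dl, Jet.Z, C_jetII]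
  simp [jetII, Par.mH, Par.mA, Par.mB, Par.x0, Par.x1a, Par.x1b, Par.x2a, Par.x2b, blocks, qf,
    b2DII_0, b2DII_1, b2DII_2, m3, PolyPSD.evalAt, Ex.eval, dotProduct, Matrix.mulVec, Matrix.trace,
    Matrix.mul_apply, Matrix.vecMulVec_apply, Matrix.vecMul, Matrix.one_apply, Fin.sum_univ_succ]
  ring

/-- Block 0 of the normalised output. -/
def b2G00II_0 : Fin 9 → Fin 9 → Ex :=
  ![![m3 (4) 2 0 0, m3 (4) 1 1 0, .num 0, m3 (-1) 3 0 0, m3 (-2) 2 1 0, m3 (-1) 1 2 0, .num 0, .num 0, .num 0],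
    ![m3 (4) 1 1 0, .add (m3 (4) 0 2 0) (m3 (4) 2 0 0), m3 (4) 1 1 0, m3 (-1) 2 1 0, .add (m3 (-2) 1 2 0) (m3 (-1) 3 0 0), .add (m3 (-1) 0 3 0) (m3 (-2) 2 1 0), m3 (-1) 1 1 0, .num 0, .num 0],
    ![.num 0, m3 (4) 1 1 0, m3 (4) 0 2 0, .num 0, m3 (-1) 2 1 0, m3 (-2) 1 2 0, m3 (-1) 0 2 0, .num 0, .num 0],
    ![m3 (-1) 3 0 0, m3 (-1) 2 1 0, .num 0, .num 0, .num 0, .num 0, .num 0, .num 0, .num 0],
    ![m3 (-2) 2 1 0, .add (m3 (-2) 1 2 0) (m3 (-1) 3 0 0), m3 (-1) 2 1 0, .num 0, .num 0, .num 0, .num 0, .num 0, .num 0],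
    ![m3 (-1) 1 2 0, .add (m3 (-1) 0 3 0) (m3 (-2) 2 1 0), m3 (-2) 1 2 0, .num 0, .num 0, .num 0, .num 0, .num 0, .num 0],
    ![.num 0, m3 (-1) 1 1 0, m3 (-1) 0 2 0, .num 0, .num 0, .num 0, .num 0, .num 0, .num 0],
    ![.num 0, .num 0, .num 0, .num 0, .num 0, .num 0, .num 0, .num 0, .num 0],
    ![.num 0, .num 0, .num 0, .num 0, .num 0, .num 0, .num 0, .num 0, .num 0]]

/-- Block 1 of the normalised output. -/
def b2G00II_1 : Fin 5 → Fin 5 → Ex :=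
  ![![m3 (4) 2 0 0, m3 (4) 1 1 0, m3 (-1) 3 0 0, m3 (-2) 2 1 0, m3 (-1) 1 1 0],
    ![m3 (4) 1 1 0, m3 (4) 0 2 0, m3 (-1) 2 1 0, m3 (-2) 1 2 0, m3 (-1) 0 2 0],
    ![m3 (-1) 3 0 0, m3 (-1) 2 1 0, .num 0, .num 0, .num 0],
    ![m3 (-2) 2 1 0, m3 (-2) 1 2 0, .num 0, .num 0, .num 0],
    ![m3 (-1) 1 1 0, m3 (-1) 0 2 0, .num 0, .num 0, .num 0]]

/-- Block 2 of the normalised output. -/
def b2G00II_2 : Fin 3 → Fin 3 → Ex :=
  ![![.num 0, .num 0, .num 0],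
    ![.num 0, .num 0, .num 0],
    ![.num 0, .num 0, .num 0]]

lemma b2G00II (X Y Z : ℝ) (p : Par) (S₂ S₃ : Matrix (Fin 4) (Fin 4) ℝ) :
    (jetII X Y Z p S₂ S₃).dd 0 0 ⬝ᵥ (jetII X Y Z p S₂ S₃).baseY (.h 0) =
      blocks X Y Z p b2G00II_0 b2G00II_1 b2G00II_2 (X^2 + Y^2) X Y / 2 := by
  norm_num [Jet.baseDiv, Jet.baseY, Jet.gradH, Jet.gradT, Jet.dd, Jet.du, Jet.dl, Jet.Z, C_jetII]
  simp [jetII, Par.mH, Par.mA, Par.mB, Par.x0, Par.x1a, Par.x1b, Par.x2a, Par.x2b, blocks, qf,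
    b2G00II_0, b2G00II_1, b2G00II_2, m3, PolyPSD.evalAt, Ex.eval, dotProduct, Matrix.mulVec, Matrix.trace,
    Matrix.mul_apply, Matrix.vecMulVec_apply, Matrix.vecMul, Matrix.one_apply, Fin.sum_univ_succ]
  ring

/-- Block 0 of the normalised output. -/
def b2G01II_0 : Fin 9 → Fin 9 → Ex :=
  ![![m3 (500) 1 0 1, m3 (250) 0 1 1, .num 0, m3 (-250) 2 0 1, m3 (-250) 1 1 1, .num 0, .num 0, m3 (-1) 2 0 2, m3 (-62500) 2 0 0],
    ![m3 (250) 0 1 1, m3 (500) 1 0 1, m3 (250) 0 1 1, m3 (-250) 1 1 1, .add (m3 (-250) 0 2 1) (m3 (-250) 2 0 1), m3 (-250) 1 1 1, .num 0, m3 (-1) 1 1 2, m3 (-125000) 1 1 0],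
    ![.num 0, m3 (250) 0 1 1, .num 0, .num 0, m3 (-250) 1 1 1, m3 (-250) 0 2 1, .num 0, .num 0, m3 (-62500) 0 2 0],
    ![m3 (-250) 2 0 1, m3 (-250) 1 1 1, .num 0, .num 0, .num 0, .num 0, .num 0, .num 0, .num 0],
    ![m3 (-250) 1 1 1, .add (m3 (-250) 0 2 1) (m3 (-250) 2 0 1), m3 (-250) 1 1 1, .num 0, .num 0, .num 0, .num 0, .num 0, .num 0],
    ![.num 0, m3 (-250) 1 1 1, m3 (-250) 0 2 1, .num 0, .num 0, .num 0, .num 0, .num 0, .num 0],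
    ![.num 0, .num 0, .num 0, .num 0, .num 0, .num 0, .num 0, .num 0, .num 0],
    ![m3 (-1) 2 0 2, m3 (-1) 1 1 2, .num 0, .num 0, .num 0, .num 0, .num 0, .num 0, .num 0],
    ![m3 (-62500) 2 0 0, m3 (-125000) 1 1 0, m3 (-62500) 0 2 0, .num 0, .num 0, .num 0, .num 0, .num 0, .num 0]]

/-- Block 1 of the normalised output. -/
def b2G01II_1 : Fin 5 → Fin 5 → Ex :=
  ![![m3 (500) 1 0 1, m3 (250) 0 1 1, m3 (-250) 2 0 1, m3 (-250) 1 1 1, .num 0],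
    ![m3 (250) 0 1 1, .num 0, m3 (-250) 1 1 1, m3 (-250) 0 2 1, .num 0],
    ![m3 (-250) 2 0 1, m3 (-250) 1 1 1, .num 0, .num 0, .num 0],
    ![m3 (-250) 1 1 1, m3 (-250) 0 2 1, .num 0, .num 0, .num 0],
    ![.num 0, .num 0, .num 0, .num 0, .num 0]]

/-- Block 2 of the normalised output. -/
def b2G01II_2 : Fin 3 → Fin 3 → Ex :=
  ![![.num 0, .num 0, .num 0],
    ![.num 0, .num 0, .num 0],
    ![.num 0, .num 0, .num 0]]

lemma b2G01II (X Y Z : ℝ) (p : Par) (S₂ S₃ : Matrix (Fin 4) (Fin 4) ℝ) :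
    (jetII X Y Z p S₂ S₃).dd 0 1 ⬝ᵥ (jetII X Y Z p S₂ S₃).baseY (.h 0) =
      blocks X Y Z p b2G01II_0 b2G01II_1 b2G01II_2 (X^2 + Y^2) X Y / 125000 := by
  norm_num [Jet.baseDiv, Jet.baseY, Jet.gradH, Jet.gradT, Jet.dd, Jet.du, Jet.dl, Jet.Z, C_jetII]
  simp [jetII, Par.mH, Par.mA, Par.mB, Par.x0, Par.x1a, Par.x1b, Par.x2a, Par.x2b, blocks, qf,
    b2G01II_0, b2G01II_1, b2G01II_2, m3, PolyPSD.evalAt, Ex.eval, dotProduct, Matrix.mulVec, Matrix.trace,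
    Matrix.mul_apply, Matrix.vecMulVec_apply, Matrix.vecMul, Matrix.one_apply, Fin.sum_univ_succ]
  ring

/-- Block 0 of the normalised output. -/
def b2G11II_0 : Fin 9 → Fin 9 → Ex :=
  ![![.num 0, .num 0, .num 0, m3 (-125) 1 0 2, .num 0, .num 0, .num 0, m3 (-1) 1 0 3, m3 (-62500) 1 0 1],
    ![.num 0, .num 0, .num 0, m3 (-125) 0 1 2, m3 (-125) 1 0 2, .num 0, .num 0, m3 (-1) 0 1 3, m3 (-62500) 0 1 1],
    ![.num 0, .num 0, .num 0, .num 0, m3 (-125) 0 1 2, .num 0, .num 0, .num 0, .num 0],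
    ![m3 (-125) 1 0 2, m3 (-125) 0 1 2, .num 0, .num 0, .num 0, .num 0, .num 0, .num 0, .num 0],
    ![.num 0, m3 (-125) 1 0 2, m3 (-125) 0 1 2, .num 0, .num 0, .num 0, .num 0, .num 0, .num 0],
    ![.num 0, .num 0, .num 0, .num 0, .num 0, .num 0, .num 0, .num 0, .num 0],
    ![.num 0, .num 0, .num 0, .num 0, .num 0, .num 0, .num 0, .num 0, .num 0],
    ![m3 (-1) 1 0 3, m3 (-1) 0 1 3, .num 0, .num 0, .num 0, .num 0, .num 0, .num 0, .num 0],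
    ![m3 (-62500) 1 0 1, m3 (-62500) 0 1 1, .num 0, .num 0, .num 0, .num 0, .num 0, .num 0, .num 0]]

/-- Block 1 of the normalised output. -/
def b2G11II_1 : Fin 5 → Fin 5 → Ex :=
  ![![.num 0, .num 0, m3 (-125) 1 0 2, .num 0, .num 0],
    ![.num 0, .num 0, m3 (-125) 0 1 2, .num 0, .num 0],
    ![m3 (-125) 1 0 2, m3 (-125) 0 1 2, .num 0, .num 0, .num 0],
    ![.num 0, .num 0, .num 0, .num 0, .num 0],
    ![.num 0, .num 0, .num 0, .num 0, .num 0]]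

/-- Block 2 of the normalised output. -/
def b2G11II_2 : Fin 3 → Fin 3 → Ex :=
  ![![.num 0, .num 0, .num 0],
    ![.num 0, .num 0, .num 0],
    ![.num 0, .num 0, .num 0]]

lemma b2G11II (X Y Z : ℝ) (p : Par) (S₂ S₃ : Matrix (Fin 4) (Fin 4) ℝ) :
    (jetII X Y Z p S₂ S₃).dd 1 1 ⬝ᵥ (jetII X Y Z p S₂ S₃).baseY (.h 0) =
      blocks X Y Z p b2G11II_0 b2G11II_1 b2G11II_2 (X^2 + Y^2) X Y / 15625000 := by
  norm_num [Jet.baseDiv, Jet.baseY, Jet.gradH, Jet.gradT, Jet.dd, Jet.du, Jet.dl, Jet.Z, C_jetII]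
  simp [jetII, Par.mH, Par.mA, Par.mB, Par.x0, Par.x1a, Par.x1b, Par.x2a, Par.x2b, blocks, qf,
    b2G11II_0, b2G11II_1, b2G11II_2, m3, PolyPSD.evalAt, Ex.eval, dotProduct, Matrix.mulVec, Matrix.trace,
    Matrix.mul_apply, Matrix.vecMulVec_apply, Matrix.vecMul, Matrix.one_apply, Fin.sum_univ_succ]
  ring

end Vale.Agent.P252.General.Cert4
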