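import Vale.Agent.P252.Rigidity.General.Cert4.Jets

/-! Block forms of one basic field, generated and checked by `ring`. -/

namespace Vale.Agent.P252.General.Cert4

open Vale.Agent.P100T.PosCheck
open scoped Matrix

set_option linter.unusedSimpArgs false

/-- Block 0 of the normalised output. -/
def b6DI_0 : Fin 9 → Fin 9 → Ex :=
  ![![.num 0, .num 0, .num 0, .num 0, .num 0, .num 0, .num 0, m3 (250) 2 0 0, .num 0],
    ![.num 0, .num 0, .num 0, .num 0, .num 0, .num 0, .num 0, m3 (500) 1 1 0, .num 0],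
    ![.num 0, .num 0, .num 0, .num 0, .num 0, .num 0, .num 0, m3 (250) 0 2 0, .num 0],
    ![.num 0, .num 0, .num 0, m3 (-750) 2 0 0, m3 (-750) 1 1 0, m3 (-250) 2 0 0, m3 (-250) 1 0 0, .add (m3 (125) 2 0 1) (m3 (98) 3 0 0), .num 0],
    ![.num 0, .num 0, .num 0, m3 (-750) 1 1 0, .add (m3 (-750) 0 2 0) (m3 (-1000) 2 0 0), m3 (-1250) 1 1 0, m3 (-250) 0 1 0, m3 (294) 2 1 0, .num 0],
    ![.num 0, .num 0, .num 0, m3 (-250) 2 0 0, m3 (-1250) 1 1 0, .add (m3 (-1000) 0 2 0) (m3 (-750) 2 0 0), m3 (-750) 1 0 0, .add (m3 (-125) 0 2 1) (.add (m3 (294) 1 2 0) (m3 (250) 2 0 1)), .num 0],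
    ![.num 0, .num 0, .num 0, m3 (-250) 1 0 0, m3 (-250) 0 1 0, m3 (-750) 1 0 0, m3 (-750) 0 0 0, .add (m3 (98) 0 2 0) (m3 (250) 1 0 1), .num 0],
    ![m3 (250) 2 0 0, m3 (500) 1 1 0, m3 (250) 0 2 0, .add (m3 (125) 2 0 1) (m3 (98) 3 0 0), m3 (294) 2 1 0, .add (m3 (-125) 0 2 1) (.add (m3 (294) 1 2 0) (m3 (250) 2 0 1)), .add (m3 (98) 0 2 0) (m3 (250) 1 0 1), m3 (-250) 2 0 2, m3 (-125000) 1 0 1],
    ![.num 0, .num 0, .num 0, .num 0, .num 0, .num 0, .num 0, m3 (-125000) 1 0 1, .num 0]]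

/-- Block 1 of the normalised output. -/
def b6DI_1 : Fin 5 → Fin 5 → Ex :=
  ![![.num 0, .num 0, .num 0, .num 0, .num 0],
    ![.num 0, .num 0, .num 0, .num 0, .num 0],
    ![.num 0, .num 0, m3 (-1000) 2 0 0, m3 (-1000) 1 1 0, .num 0],
    ![.num 0, .num 0, m3 (-1000) 1 1 0, .add (m3 (-1000) 0 2 0) (m3 (-1000) 2 0 0), m3 (-1000) 1 0 0],
    ![.num 0, .num 0, .num 0, m3 (-1000) 1 0 0, m3 (-1000) 0 0 0]]

/-- Block 2 of the normalised output. -/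
def b6DI_2 : Fin 3 → Fin 3 → Ex :=
  ![![.num 0, .num 0, .num 0],
    ![.num 0, m3 (-1000) 2 0 0, m3 (-1000) 1 0 0],
    ![.num 0, m3 (-1000) 1 0 0, m3 (-1000) 0 0 0]]

lemma b6DI (X Y Z : ℝ) (p : Par) (S₂ S₃ : Matrix (Fin 4) (Fin 4) ℝ) :
    (jetI X Y Z p S₂ S₃).baseDiv (.t 1 1) + ((100 : ℝ) • (jetI X Y Z p S₂ S₃).v + (-1 / 2 : ℝ) • (jetI X Y Z p S₂ S₃).t) ⬝ᵥ (jetI X Y Z p S₂ S₃).baseY (.t 1 1) =
      blocks X Y Z p b6DI_0 b6DI_1 b6DI_2 (Z^2) Z 0 / 31250000 := by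
  norm_num [Jet.baseDiv, Jet.baseY, Jet.gradH, Jet.gradT, Jet.dd, Jet.du, Jet.dl, Jet.Z, C_jetI]
  simp [jetI, Par.mH, Par.mA, Par.mB, Par.x0, Par.x1a, Par.x1b, Par.x2a, Par.x2b, blocks, qf,
    b6DI_0, b6DI_1, b6DI_2, m3, PolyPSD.evalAt, Ex.eval, dotProduct, Matrix.mulVec, Matrix.trace,
    Matrix.mul_apply, Matrix.vecMulVec_apply, Matrix.vecMul, Matrix.one_apply, Fin.sum_univ_succ]
  ring

/-- Block 0 of the normalised output. -/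
def b6G00I_0 : Fin 9 → Fin 9 → Ex :=
  ![![.num 0, .num 0, .num 0, m3 (2) 2 0 1, m3 (4) 1 1 1, m3 (2) 0 2 1, .num 0, .num 0, .num 0],
    ![.num 0, .num 0, .num 0, .num 0, m3 (2) 2 0 1, m3 (4) 1 1 1, m3 (2) 0 1 1, .num 0, .num 0],
    ![.num 0, .num 0, .num 0, .num 0, .num 0, .num 0, .num 0, .num 0, .num 0],
    ![m3 (2) 2 0 1, .num 0, .num 0, m3 (-2) 2 0 2, m3 (-2) 1 1 2, m3 (-1) 0 2 2, .num 0, .num 0, .num 0],
    ![m3 (4) 1 1 1, m3 (2) 2 0 1, .num 0, m3 (-2) 1 1 2, m3 (-2) 2 0 2, m3 (-2) 1 1 2, m3 (-1) 0 1 2, .num 0, .num 0],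
    ![m3 (2) 0 2 1, m3 (4) 1 1 1, .num 0, m3 (-1) 0 2 2, m3 (-2) 1 1 2, .num 0, .num 0, .num 0, .num 0],
    ![.num 0, m3 (2) 0 1 1, .num 0, .num 0, m3 (-1) 0 1 2, .num 0, .num 0, .num 0, .num 0],
    ![.num 0, .num 0, .num 0, .num 0, .num 0, .num 0, .num 0, .num 0, .num 0],
    ![.num 0, .num 0, .num 0, .num 0, .num 0, .num 0, .num 0, .num 0, .num 0]]

/-- Block 1 of the normalised output. -/
def b6G00I_1 : Fin 5 → Fin 5 → Ex :=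
  ![![.num 0, .num 0, m3 (2) 2 0 1, m3 (4) 1 1 1, m3 (2) 0 1 1],
    ![.num 0, .num 0, .num 0, .num 0, .num 0],
    ![m3 (2) 2 0 1, .num 0, m3 (-2) 2 0 2, m3 (-2) 1 1 2, m3 (-1) 0 1 2],
    ![m3 (4) 1 1 1, .num 0, m3 (-2) 1 1 2, .num 0, .num 0],
    ![m3 (2) 0 1 1, .num 0, m3 (-1) 0 1 2, .num 0, .num 0]]

/-- Block 2 of the normalised output. -/
def b6G00I_2 : Fin 3 → Fin 3 → Ex :=
  ![![.num 0, .num 0, .num 0],
    ![.num 0, .num 0, .num 0],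
    ![.num 0, .num 0, .num 0]]

lemma b6G00I (X Y Z : ℝ) (p : Par) (S₂ S₃ : Matrix (Fin 4) (Fin 4) ℝ) :
    (jetI X Y Z p S₂ S₃).dd 0 0 ⬝ᵥ (jetI X Y Z p S₂ S₃).baseY (.t 1 1) =
      blocks X Y Z p b6G00I_0 b6G00I_1 b6G00I_2 (Z^2) Z 0 / 125000 := by
  norm_num [Jet.baseDiv, Jet.baseY, Jet.gradH, Jet.gradT, Jet.dd, Jet.du, Jet.dl, Jet.Z, C_jetI]
  simp [jetI, Par.mH, Par.mA, Par.mB, Par.x0, Par.x1a, Par.x1b, Par.x2a, Par.x2b, blocks, qf,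
    b6G00I_0, b6G00I_1, b6G00I_2, m3, PolyPSD.evalAt, Ex.eval, dotProduct, Matrix.mulVec, Matrix.trace,
    Matrix.mul_apply, Matrix.vecMulVec_apply, Matrix.vecMul, Matrix.one_apply, Fin.sum_univ_succ]
  ring

/-- Block 0 of the normalised output. -/
def b6G01I_0 : Fin 9 → Fin 9 → Ex :=
  ![![.num 0, .num 0, .num 0, m3 (250) 3 0 0, m3 (500) 2 1 0, m3 (250) 1 2 0, .num 0, .num 0, .num 0],
    ![.num 0, .num 0, .num 0, m3 (250) 2 1 0, .add (m3 (500) 1 2 0) (m3 (250) 3 0 0), .add (m3 (250) 0 3 0) (m3 (500) 2 1 0), m3 (250) 1 1 0, .num 0, .num 0],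
    ![.num 0, .num 0, .num 0, .num 0, m3 (250) 2 1 0, m3 (500) 1 2 0, m3 (250) 0 2 0, .num 0, .num 0],
    ![m3 (250) 3 0 0, m3 (250) 2 1 0, .num 0, m3 (-500) 3 0 1, m3 (-750) 2 1 1, m3 (-250) 1 2 1, .num 0, m3 (-1) 4 0 1, m3 (-62500) 2 0 1],
    ![m3 (500) 2 1 0, .add (m3 (500) 1 2 0) (m3 (250) 3 0 0), m3 (250) 2 1 0, m3 (-750) 2 1 1, .add (m3 (-1000) 1 2 1) (m3 (-500) 3 0 1), .add (m3 (-250) 0 3 1) (m3 (-750) 2 1 1), m3 (-250) 1 1 1, m3 (-3) 3 1 1, m3 (-125000) 1 1 1],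
    ![m3 (250) 1 2 0, .add (m3 (250) 0 3 0) (m3 (500) 2 1 0), m3 (500) 1 2 0, m3 (-250) 1 2 1, .add (m3 (-250) 0 3 1) (m3 (-750) 2 1 1), m3 (-1000) 1 2 1, m3 (-250) 0 2 1, m3 (-3) 2 2 1, m3 (-62500) 0 2 1],
    ![.num 0, m3 (250) 1 1 0, m3 (250) 0 2 0, .num 0, m3 (-250) 1 1 1, m3 (-250) 0 2 1, .num 0, m3 (-1) 1 2 1, .num 0],
    ![.num 0, .num 0, .num 0, m3 (-1) 4 0 1, m3 (-3) 3 1 1, m3 (-3) 2 2 1, m3 (-1) 1 2 1, .num 0, .num 0],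
    ![.num 0, .num 0, .num 0, m3 (-62500) 2 0 1, m3 (-125000) 1 1 1, m3 (-62500) 0 2 1, .num 0, .num 0, .num 0]]

/-- Block 1 of the normalised output. -/
def b6G01I_1 : Fin 5 → Fin 5 → Ex :=
  ![![.num 0, .num 0, m3 (250) 3 0 0, m3 (500) 2 1 0, m3 (250) 1 1 0],
    ![.num 0, .num 0, m3 (250) 2 1 0, m3 (500) 1 2 0, m3 (250) 0 2 0],
    ![m3 (250) 3 0 0, m3 (250) 2 1 0, m3 (-500) 3 0 1, m3 (-750) 2 1 1, m3 (-250) 1 1 1],
    ![m3 (500) 2 1 0, m3 (500) 1 2 0, m3 (-750) 2 1 1, m3 (-1000) 1 2 1, m3 (-250) 0 2 1],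
    ![m3 (250) 1 1 0, m3 (250) 0 2 0, m3 (-250) 1 1 1, m3 (-250) 0 2 1, .num 0]]

/-- Block 2 of the normalised output. -/
def b6G01I_2 : Fin 3 → Fin 3 → Ex :=
  ![![.num 0, .num 0, .num 0],
    ![.num 0, .num 0, .num 0],
    ![.num 0, .num 0, .num 0]]

lemma b6G01I (X Y Z : ℝ) (p : Par) (S₂ S₃ : Matrix (Fin 4) (Fin 4) ℝ) :
    (jetI X Y Z p S₂ S₃).dd 0 1 ⬝ᵥ (jetI X Y Z p S₂ S₃).baseY (.t 1 1) =
      blocks X Y Z p b6G01I_0 b6G01I_1 b6G01I_2 (Z^2) Z 0 / 7812500000 := by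
  norm_num [Jet.baseDiv, Jet.baseY, Jet.gradH, Jet.gradT, Jet.dd, Jet.du, Jet.dl, Jet.Z, C_jetI]
  simp [jetI, Par.mH, Par.mA, Par.mB, Par.x0, Par.x1a, Par.x1b, Par.x2a, Par.x2b, blocks, qf,
    b6G01I_0, b6G01I_1, b6G01I_2, m3, PolyPSD.evalAt, Ex.eval, dotProduct, Matrix.mulVec, Matrix.trace,
    Matrix.mul_apply, Matrix.vecMulVec_apply, Matrix.vecMul, Matrix.one_apply, Fin.sum_univ_succ]
  ring

/-- Block 0 of the normalised output. -/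
def b6G11I_0 : Fin 9 → Fin 9 → Ex :=
  ![![.num 0, .num 0, .num 0, .num 0, .num 0, .num 0, .num 0, .num 0, .num 0],
    ![.num 0, .num 0, .num 0, .num 0, .num 0, .num 0, .num 0, .num 0, .num 0],
    ![.num 0, .num 0, .num 0, .num 0, .num 0, .num 0, .num 0, .num 0, .num 0],
    ![.num 0, .num 0, .num 0, m3 (-250) 4 0 0, m3 (-500) 3 1 0, m3 (-250) 2 2 0, .num 0, .add (m3 (-1) 3 2 0) (m3 (-1) 5 0 0), m3 (-62500) 3 0 0],
    ![.num 0, .num 0, .num 0, m3 (-500) 3 1 0, .add (m3 (-1000) 2 2 0) (m3 (-250) 4 0 0), .add (m3 (-500) 1 3 0) (m3 (-500) 3 1 0), m3 (-250) 2 1 0, .add (m3 (-3) 2 3 0) (m3 (-3) 4 1 0), m3 (-187500) 2 1 0],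
    ![.num 0, .num 0, .num 0, m3 (-250) 2 2 0, .add (m3 (-500) 1 3 0) (m3 (-500) 3 1 0), .add (m3 (-250) 0 4 0) (m3 (-1000) 2 2 0), m3 (-500) 1 2 0, .add (m3 (-3) 1 4 0) (m3 (-3) 3 2 0), m3 (-187500) 1 2 0],
    ![.num 0, .num 0, .num 0, .num 0, m3 (-250) 2 1 0, m3 (-500) 1 2 0, m3 (-250) 0 2 0, .add (m3 (-1) 0 4 0) (m3 (-1) 2 2 0), m3 (-62500) 0 2 0],
    ![.num 0, .num 0, .num 0, .add (m3 (-1) 3 2 0) (m3 (-1) 5 0 0), .add (m3 (-3) 2 3 0) (m3 (-3) 4 1 0), .add (m3 (-3) 1 4 0) (m3 (-3) 3 2 0), .add (m3 (-1) 0 4 0) (m3 (-1) 2 2 0), .num 0, .num 0],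
    ![.num 0, .num 0, .num 0, m3 (-62500) 3 0 0, m3 (-187500) 2 1 0, m3 (-187500) 1 2 0, m3 (-62500) 0 2 0, .num 0, .num 0]]

/-- Block 1 of the normalised output. -/
def b6G11I_1 : Fin 5 → Fin 5 → Ex :=
  ![![.num 0, .num 0, .num 0, .num 0, .num 0],
    ![.num 0, .num 0, .num 0, .num 0, .num 0],
    ![.num 0, .num 0, m3 (-250) 4 0 0, m3 (-500) 3 1 0, m3 (-250) 2 1 0],
    ![.num 0, .num 0, m3 (-500) 3 1 0, m3 (-1000) 2 2 0, m3 (-500) 1 2 0],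
    ![.num 0, .num 0, m3 (-250) 2 1 0, m3 (-500) 1 2 0, m3 (-250) 0 2 0]]

/-- Block 2 of the normalised output. -/
def b6G11I_2 : Fin 3 → Fin 3 → Ex :=
  ![![.num 0, .num 0, .num 0],
    ![.num 0, .num 0, .num 0],
    ![.num 0, .num 0, .num 0]]

lemma b6G11I (X Y Z : ℝ) (p : Par) (S₂ S₃ : Matrix (Fin 4) (Fin 4) ℝ) :
    (jetI X Y Z p S₂ S₃).dd 1 1 ⬝ᵥ (jetI X Y Z p S₂ S₃).baseY (.t 1 1) =
      blocks X Y Z p b6G11I_0 b6G11I_1 b6G11I_2 (Z^2) Z 0 / 976562500000 := by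
  norm_num [Jet.baseDiv, Jet.baseY, Jet.gradH, Jet.gradT, Jet.dd, Jet.du, Jet.dl, Jet.Z, C_jetI]
  simp [jetI, Par.mH, Par.mA, Par.mB, Par.x0, Par.x1a, Par.x1b, Par.x2a, Par.x2b, blocks, qf,
    b6G11I_0, b6G11I_1, b6G11I_2, m3, PolyPSD.evalAt, Ex.eval, dotProduct, Matrix.mulVec, Matrix.trace,
    Matrix.mul_apply, Matrix.vecMulVec_apply, Matrix.vecMul, Matrix.one_apply, Fin.sum_univ_succ]
  ring

/-- Block 0 of the normalised output. -/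
def b6DII_0 : Fin 9 → Fin 9 → Ex :=
  ![![.num 0, .num 0, .num 0, .num 0, .num 0, .num 0, .num 0, m3 (250) 0 0 2, .num 0],
    ![.num 0, .num 0, .num 0, .num 0, .num 0, .num 0, .num 0, .num 0, .num 0],
    ![.num 0, .num 0, .num 0, .num 0, .num 0, .num 0, .num 0, .num 0, .num 0],
    ![.num 0, .num 0, .num 0, m3 (-750) 0 0 2, .num 0, m3 (-250) 0 0 2, .num 0, .add (m3 (98) 0 0 3) (m3 (125) 1 0 2), .num 0],
    ![.num 0, .num 0, .num 0, .num 0, m3 (-1000) 0 0 2, .num 0, .num 0, m3 (-125) 0 1 2, .num 0],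
    ![.num 0, .num 0, .num 0, m3 (-250) 0 0 2, .num 0, m3 (-750) 0 0 2, .num 0, m3 (250) 1 0 2, .num 0],
    ![.num 0, .num 0, .num 0, .num 0, .num 0, .num 0, .num 0, .num 0, .num 0],
    ![m3 (250) 0 0 2, .num 0, .num 0, .add (m3 (98) 0 0 3) (m3 (125) 1 0 2), m3 (-125) 0 1 2, m3 (250) 1 0 2, .num 0, m3 (-250) 2 0 2, m3 (-125000) 1 0 1],
    ![.num 0, .num 0, .num 0, .num 0, .num 0, .num 0, .num 0, m3 (-125000) 1 0 1, .num 0]]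

/-- Block 1 of the normalised output. -/
def b6DII_1 : Fin 5 → Fin 5 → Ex :=
  ![![.num 0, .num 0, .num 0, .num 0, .num 0],
    ![.num 0, .num 0, .num 0, .num 0, .num 0],
    ![.num 0, .num 0, m3 (-1000) 0 0 2, .num 0, .num 0],
    ![.num 0, .num 0, .num 0, m3 (-1000) 0 0 2, .num 0],
    ![.num 0, .num 0, .num 0, .num 0, .num 0]]

/-- Block 2 of the normalised output. -/
def b6DII_2 : Fin 3 → Fin 3 → Ex :=
  ![![.num 0, .num 0, .num 0],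
    ![.num 0, m3 (-1000) 0 0 2, .num 0],
    ![.num 0, .num 0, .num 0]]

lemma b6DII (X Y Z : ℝ) (p : Par) (S₂ S₃ : Matrix (Fin 4) (Fin 4) ℝ) :
    (jetII X Y Z p S₂ S₃).baseDiv (.t 1 1) + ((100 : ℝ) • (jetII X Y Z p S₂ S₃).v + (-1 / 2 : ℝ) • (jetII X Y Z p S₂ S₃).t) ⬝ᵥ (jetII X Y Z p S₂ S₃).baseY (.t 1 1) =
      blocks X Y Z p b6DII_0 b6DII_1 b6DII_2 (X^2 + Y^2) X Y / 31250000 := by
  norm_num [Jet.baseDiv, Jet.baseY, Jet.gradH, Jet.gradT, Jet.dd, Jet.du, Jet.dl, Jet.Z, C_jetII]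
  simp [jetII, Par.mH, Par.mA, Par.mB, Par.x0, Par.x1a, Par.x1b, Par.x2a, Par.x2b, blocks, qf,
    b6DII_0, b6DII_1, b6DII_2, m3, PolyPSD.evalAt, Ex.eval, dotProduct, Matrix.mulVec, Matrix.trace,
    Matrix.mul_apply, Matrix.vecMulVec_apply, Matrix.vecMul, Matrix.one_apply, Fin.sum_univ_succ]
  ring

/-- Block 0 of the normalised output. -/
def b6G00II_0 : Fin 9 → Fin 9 → Ex :=
  ![![.num 0, .num 0, .num 0, m3 (2) 1 0 2, .num 0, .num 0, .num 0, .num 0, .num 0],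
    ![.num 0, .num 0, .num 0, m3 (2) 0 1 2, m3 (2) 1 0 2, .num 0, .num 0, .num 0, .num 0],
    ![.num 0, .num 0, .num 0, .num 0, m3 (2) 0 1 2, .num 0, .num 0, .num 0, .num 0],
    ![m3 (2) 1 0 2, m3 (2) 0 1 2, .num 0, m3 (-2) 2 0 2, m3 (-2) 1 1 2, m3 (-1) 0 2 2, .num 0, .num 0, .num 0],
    ![.num 0, m3 (2) 1 0 2, m3 (2) 0 1 2, m3 (-2) 1 1 2, m3 (-2) 2 0 2, m3 (-2) 1 1 2, m3 (-1) 0 1 2, .num 0, .num 0],
    ![.num 0, .num 0, .num 0, m3 (-1) 0 2 2, m3 (-2) 1 1 2, .num 0, .num 0, .num 0, .num 0],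
    ![.num 0, .num 0, .num 0, .num 0, m3 (-1) 0 1 2, .num 0, .num 0, .num 0, .num 0],
    ![.num 0, .num 0, .num 0, .num 0, .num 0, .num 0, .num 0, .num 0, .num 0],
    ![.num 0, .num 0, .num 0, .num 0, .num 0, .num 0, .num 0, .num 0, .num 0]]

/-- Block 1 of the normalised output. -/
def b6G00II_1 : Fin 5 → Fin 5 → Ex :=
  ![![.num 0, .num 0, m3 (2) 1 0 2, .num 0, .num 0],
    ![.num 0, .num 0, m3 (2) 0 1 2, .num 0, .num 0],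
    ![m3 (2) 1 0 2, m3 (2) 0 1 2, m3 (-2) 2 0 2, m3 (-2) 1 1 2, m3 (-1) 0 1 2],
    ![.num 0, .num 0, m3 (-2) 1 1 2, .num 0, .num 0],
    ![.num 0, .num 0, m3 (-1) 0 1 2, .num 0, .num 0]]

/-- Block 2 of the normalised output. -/
def b6G00II_2 : Fin 3 → Fin 3 → Ex :=
  ![![.num 0, .num 0, .num 0],
    ![.num 0, .num 0, .num 0],
    ![.num 0, .num 0, .num 0]]

lemma b6G00II (X Y Z : ℝ) (p : Par) (S₂ S₃ : Matrix (Fin 4) (Fin 4) ℝ) :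
    (jetII X Y Z p S₂ S₃).dd 0 0 ⬝ᵥ (jetII X Y Z p S₂ S₃).baseY (.t 1 1) =
      blocks X Y Z p b6G00II_0 b6G00II_1 b6G00II_2 (X^2 + Y^2) X Y / 125000 := by
  norm_num [Jet.baseDiv, Jet.baseY, Jet.gradH, Jet.gradT, Jet.dd, Jet.du, Jet.dl, Jet.Z, C_jetII]
  simp [jetII, Par.mH, Par.mA, Par.mB, Par.x0, Par.x1a, Par.x1b, Par.x2a, Par.x2b, blocks, qf,
    b6G00II_0, b6G00II_1, b6G00II_2, m3, PolyPSD.evalAt, Ex.eval, dotProduct, Matrix.mulVec, Matrix.trace,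
    Matrix.mul_apply, Matrix.vecMulVec_apply, Matrix.vecMul, Matrix.one_apply, Fin.sum_univ_succ]
  ring

/-- Block 0 of the normalised output. -/
def b6G01II_0 : Fin 9 → Fin 9 → Ex :=
  ![![.num 0, .num 0, .num 0, m3 (250) 0 0 3, .num 0, .num 0, .num 0, .num 0, .num 0],
    ![.num 0, .num 0, .num 0, .num 0, m3 (250) 0 0 3, .num 0, .num 0, .num 0, .num 0],
    ![.num 0, .num 0, .num 0, .num 0, .num 0, .num 0, .num 0, .num 0, .num 0],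
    ![m3 (250) 0 0 3, .num 0, .num 0, m3 (-500) 1 0 3, m3 (-250) 0 1 3, .num 0, .num 0, m3 (-1) 1 0 4, m3 (-62500) 1 0 2],
    ![.num 0, m3 (250) 0 0 3, .num 0, m3 (-250) 0 1 3, m3 (-500) 1 0 3, m3 (-250) 0 1 3, .num 0, .num 0, m3 (-62500) 0 1 2],
    ![.num 0, .num 0, .num 0, .num 0, m3 (-250) 0 1 3, .num 0, .num 0, .num 0, .num 0],
    ![.num 0, .num 0, .num 0, .num 0, .num 0, .num 0, .num 0, .num 0, .num 0],
    ![.num 0, .num 0, .num 0, m3 (-1) 1 0 4, .num 0, .num 0, .num 0, .num 0, .num 0],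
    ![.num 0, .num 0, .num 0, m3 (-62500) 1 0 2, m3 (-62500) 0 1 2, .num 0, .num 0, .num 0, .num 0]]

/-- Block 1 of the normalised output. -/
def b6G01II_1 : Fin 5 → Fin 5 → Ex :=
  ![![.num 0, .num 0, m3 (250) 0 0 3, .num 0, .num 0],
    ![.num 0, .num 0, .num 0, .num 0, .num 0],
    ![m3 (250) 0 0 3, .num 0, m3 (-500) 1 0 3, m3 (-250) 0 1 3, .num 0],
    ![.num 0, .num 0, m3 (-250) 0 1 3, .num 0, .num 0],
    ![.num 0, .num 0, .num 0, .num 0, .num 0]]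

/-- Block 2 of the normalised output. -/
def b6G01II_2 : Fin 3 → Fin 3 → Ex :=
  ![![.num 0, .num 0, .num 0],
    ![.num 0, .num 0, .num 0],
    ![.num 0, .num 0, .num 0]]

lemma b6G01II (X Y Z : ℝ) (p : Par) (S₂ S₃ : Matrix (Fin 4) (Fin 4) ℝ) :
    (jetII X Y Z p S₂ S₃).dd 0 1 ⬝ᵥ (jetII X Y Z p S₂ S₃).baseY (.t 1 1) =
      blocks X Y Z p b6G01II_0 b6G01II_1 b6G01II_2 (X^2 + Y^2) X Y / 7812500000 := by
  norm_num [Jet.baseDiv, Jet.baseY, Jet.gradH, Jet.gradT, Jet.dd, Jet.du, Jet.dl, Jet.Z, C_jetII]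
  simp [jetII, Par.mH, Par.mA, Par.mB, Par.x0, Par.x1a, Par.x1b, Par.x2a, Par.x2b, blocks, qf,
    b6G01II_0, b6G01II_1, b6G01II_2, m3, PolyPSD.evalAt, Ex.eval, dotProduct, Matrix.mulVec, Matrix.trace,
    Matrix.mul_apply, Matrix.vecMulVec_apply, Matrix.vecMul, Matrix.one_apply, Fin.sum_univ_succ]
  ring

/-- Block 0 of the normalised output. -/
def b6G11II_0 : Fin 9 → Fin 9 → Ex :=
  ![![.num 0, .num 0, .num 0, .num 0, .num 0, .num 0, .num 0, .num 0, .num 0],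
    ![.num 0, .num 0, .num 0, .num 0, .num 0, .num 0, .num 0, .num 0, .num 0],
    ![.num 0, .num 0, .num 0, .num 0, .num 0, .num 0, .num 0, .num 0, .num 0],
    ![.num 0, .num 0, .num 0, m3 (-250) 0 0 4, .num 0, .num 0, .num 0, m3 (-1) 0 0 5, m3 (-62500) 0 0 3],
    ![.num 0, .num 0, .num 0, .num 0, m3 (-250) 0 0 4, .num 0, .num 0, .num 0, .num 0],
    ![.num 0, .num 0, .num 0, .num 0, .num 0, .num 0, .num 0, .num 0, .num 0],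
    ![.num 0, .num 0, .num 0, .num 0, .num 0, .num 0, .num 0, .num 0, .num 0],
    ![.num 0, .num 0, .num 0, m3 (-1) 0 0 5, .num 0, .num 0, .num 0, .num 0, .num 0],
    ![.num 0, .num 0, .num 0, m3 (-62500) 0 0 3, .num 0, .num 0, .num 0, .num 0, .num 0]]

/-- Block 1 of the normalised output. -/
def b6G11II_1 : Fin 5 → Fin 5 → Ex :=
  ![![.num 0, .num 0, .num 0, .num 0, .num 0],
    ![.num 0, .num 0, .num 0, .num 0, .num 0],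
    ![.num 0, .num 0, m3 (-250) 0 0 4, .num 0, .num 0],
    ![.num 0, .num 0, .num 0, .num 0, .num 0],
    ![.num 0, .num 0, .num 0, .num 0, .num 0]]

/-- Block 2 of the normalised output. -/
def b6G11II_2 : Fin 3 → Fin 3 → Ex :=
  ![![.num 0, .num 0, .num 0],
    ![.num 0, .num 0, .num 0],
    ![.num 0, .num 0, .num 0]]

lemma b6G11II (X Y Z : ℝ) (p : Par) (S₂ S₃ : Matrix (Fin 4) (Fin 4) ℝ) :
    (jetII X Y Z p S₂ S₃).dd 1 1 ⬝ᵥ (jetII X Y Z p S₂ S₃).baseY (.t 1 1) =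
      blocks X Y Z p b6G11II_0 b6G11II_1 b6G11II_2 (X^2 + Y^2) X Y / 976562500000 := by
  norm_num [Jet.baseDiv, Jet.baseY, Jet.gradH, Jet.gradT, Jet.dd, Jet.du, Jet.dl, Jet.Z, C_jetII]
  simp [jetII, Par.mH, Par.mA, Par.mB, Par.x0, Par.x1a, Par.x1b, Par.x2a, Par.x2b, blocks, qf,
    b6G11II_0, b6G11II_1, b6G11II_2, m3, PolyPSD.evalAt, Ex.eval, dotProduct, Matrix.mulVec, Matrix.trace,
    Matrix.mul_apply, Matrix.vecMulVec_apply, Matrix.vecMul, Matrix.one_apply, Fin.sum_univ_succ]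
  ring

end Vale.Agent.P252.General.Cert4
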